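import Vale.Agent.P260Z.Ob.Coh.Defs

/-!
# P260, obstruction, cohomology: the caves are joined to the outside
-/

noncomputable section
set_option linter.unusedSectionVars false
set_option linter.unusedVariables false
variable [Vale.Agent.P215Z.K.Geom]
namespace Vale.Agent.P215Z.K.Coh
open MvPolynomial Fm Vale.Agent.P215Z.Coh

namespace Outx

export Vale.Agent.P215Z.Coh.Outx (mul_mono inBox_mono not_both inBox_mul bot_ne bot_three
  bot_update inBox_bot Kof_eq)

variable {N : ℕ} {a b q : Pt}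

/-- inside a box of removed cubes one passes from any cube to any other -/
theorem walk (hf : ∀ q, InBox N a b q → q ∉ Uc N) {q' : Pt} (h' : InBox N a b q')
    (ho : Out N q') (n : ℕ) : ∀ q, InBox N a b q → q 3 = q' 3 →
      ∑ j, (q j - q' j).natAbs < n → Out N q := by
  induction n with
  | zero => exact fun _ _ _ h => absurd h (Nat.not_lt_zero _)
  | succ n ih =>
    intro q h h3 hn
    by_cases he : q = q'
    · rwa [he]
    obtain ⟨k, hk⟩ := Function.ne_iff.1 he
    have hk3 : k ≠ 3 := fun e => hk (e ▸ h3)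
    have h1 := fc_self q k (decide (q k < q' k))
    have h2 : InBox N a b (fc q k (decide (q k < q' k))) := fun j => by
      by_cases hj : j = k
      · have := h k
        have := h' k
        rw [hj, h1]
        split_ifs with h4 <;> simp only [decide_eq_true_eq] at h4 <;> omega
      · rw [fc_ne q hj]
        exact h j
    refine Out.step q k _ hk3 (hf _ h2) (ih _ h2 (by rw [fc_ne q hk3.symm, h3]) ?_)
    refine lt_of_lt_of_le (Finset.sum_lt_sum (fun j _ => ?_) ⟨k, Finset.mem_univ _, ?_⟩)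
      (Nat.lt_succ_iff.1 hn)
    · by_cases hj : j = k
      · rw [hj, h1]
        split_ifs with h4 <;> simp only [decide_eq_true_eq] at h4 <;> omega
      · rw [fc_ne q hj]
    · rw [h1]
      split_ifs with h4 <;> simp only [decide_eq_true_eq] at h4 <;> omega

/-- all cubes of the cave leave the box -/
def Ex (N : ℕ) (c : Pt × Pt) : Prop := ∀ q, InBox N c.1 c.2 q → q 3 = 0 → Out N q

theorem link (hN : 0 < N) {c c' : Pt × Pt} (hc : c ∈ caves) (hc' : c' ∈ caves) (h : Ex N c')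
    (hm : ∀ j, c.1 j < c'.2 j ∧ c'.1 j < c.2 j) : Ex N c := fun q h1 h3 => by
  have h4 : (N : ℤ) * max (c.1 3) (c'.1 3) = 0 := by
    rw [(Gx.cave_three c hc).1, (Gx.cave_three c' hc').1, max_self, mul_zero]
  have h5 := Gx.cave_lt c hc
  have h6 := Gx.cave_lt c' hc'
  exact walk (q' := fun j => N * max (c.1 j) (c'.1 j)) (fun q hq hu => hu.2 _ hc hq)
    ((inBox_mul hN).2 fun j => ⟨le_max_left _ _, max_lt (h5 j) (hm j).2⟩)
    (h _ ((inBox_mul hN).2 fun j => ⟨le_max_right _ _, max_lt (hm j).1 (h6 j)⟩) h4) _ q h1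
    (h3.trans h4.symm) (Nat.lt_succ_self _)

theorem exit (hN : 0 < N) {c : Pt × Pt} (hc : c ∈ caves) {k : Fin 4} (hk : k ≠ 3)
    (h : c.1 k ≤ 0 ∨ boxHi k ≤ c.2 k) : Ex N c := fun q h1 h3 => by
  have h5 := Gx.cave_lt c hc
  have h6 := (Gx.cave_three c hc).1
  rcases h with h | h
  · refine walk (a := Function.update c.1 k (min (c.1 k) (-1))) (b := c.2)
      (q' := fun j => N * Function.update c.1 k (min (c.1 k) (-1)) j)
      (fun q hq hu => hu.2 _ hc fun j => ⟨?_, (hq j).2⟩)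
      ((inBox_mul hN).2 fun j => ⟨le_rfl, ?_⟩) (Out.base _ fun h => ?_) _ q
      (inBox_mono h1 fun j => ⟨?_, le_rfl⟩)
      (by rw [h3, Function.update_of_ne hk.symm, h6, mul_zero]) (Nat.lt_succ_self _)
    · by_cases e : j = k
      · rw [e]
        exact (mul_mono N h).trans (hu.1 k).1
      · simpa only [Function.update_of_ne e] using (hq j).1
    · by_cases e : j = k
      · rw [e, Function.update_self]
        exact (min_le_left _ _).trans_lt (h5 k)
      · rw [Function.update_of_ne e]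
        exact h5 j
    · have := ((inBox_mul hN).1 h k).1
      rw [Function.update_self, Pi.zero_apply] at this
      omega
    · by_cases e : j = k
      · rw [e, Function.update_self]
        exact min_le_left _ _
      · rw [Function.update_of_ne e]
  · refine walk (a := c.1) (b := Function.update c.2 k (c.2 k + 1))
      (q' := fun j => N * Function.update c.1 k (c.2 k) j)
      (fun q hq hu => hu.2 _ hc fun j => ⟨(hq j).1, ?_⟩)
      ((inBox_mul hN).2 fun j => ?_) (Out.base _ fun h => ?_) _ q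
      (inBox_mono h1 fun j => ⟨le_rfl, ?_⟩)
      (by rw [h3, Function.update_of_ne hk.symm, h6, mul_zero]) (Nat.lt_succ_self _)
    · by_cases e : j = k
      · rw [e]
        exact (hu.1 k).2.trans_le (mul_mono N h)
      · simpa only [Function.update_of_ne e] using (hq j).2
    · by_cases e : j = k
      · rw [e, Function.update_self, Function.update_self]
        exact ⟨(h5 k).le, lt_add_one _⟩
      · rw [Function.update_of_ne e, Function.update_of_ne e]
        exact ⟨le_rfl, h5 j⟩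
    · have := ((inBox_mul hN).1 h k).2
      rw [Function.update_self] at this
      omega
    · by_cases e : j = k
      · rw [e, Function.update_self]
        exact (lt_add_one _).le
      · rw [Function.update_of_ne e]

theorem ex_all (hN : 0 < N) {c : Pt × Pt} (hc : c ∈ caves) : Ex N c := by
  obtain ⟨rk, hrk⟩ := Gx.cave_out
  induction h : rk c using Nat.strong_induction_on generalizing c with
  | _ n ih =>
    rcases hrk c hc with ⟨k, hk, h1⟩ | ⟨c', hc', h1, h2⟩
    · exact exit hN hc hk h1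
    · exact link hN hc hc' (ih _ (h ▸ h1) hc' rfl) h2

theorem Uc_bot (hN : 0 < N) : q ∈ Uc N ↔ bot q ∈ Uc N ∧ 0 ≤ q 3 ∧ q 3 < 3 * N := by
  have h1 := Gx.cave_three
  have h2 := @inBox_bot N 0 boxHi q hN rfl Gx.hi_three
  refine ⟨fun h => ⟨⟨(h2.1 h.1).1, fun c hc k => h.2 c hc ?_⟩, (h2.1 h.1).2⟩,
    fun h => ⟨h2.2 ⟨h.1.1, h.2⟩, fun c hc k => h.1.2 c hc ?_⟩⟩
  · exact (inBox_bot hN (h1 c hc).1 (h1 c hc).2).2 ⟨k, (h2.1 h.1).2⟩
  · exact ((inBox_bot hN (h1 c hc).1 (h1 c hc).2).1 k).1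

theorem Qc_bot (hN : 0 < N) (l : Lg) :
    q ∈ Qc N l ↔ bot q ∈ Qc N l ∧ 0 ≤ q 3 ∧ q 3 < 3 * N := by
  exact inBox_bot hN (Gx.org_three' l).1 (Gx.org_three' l).2

theorem col_bot (hN : 0 < N) (s : Bool) : (q ∈ Uc N ∧ ∀ i, q ∉ Qc N (i, s)) ↔
    (bot q ∈ Uc N ∧ ∀ i, bot q ∉ Qc N (i, s)) ∧ 0 ≤ q 3 ∧ q 3 < 3 * N :=
  ⟨fun h => ⟨⟨((Uc_bot hN).1 h.1).1, fun i k => h.2 i
      ((Qc_bot hN _).2 ⟨k, ((Uc_bot hN).1 h.1).2⟩)⟩, ((Uc_bot hN).1 h.1).2⟩,
    fun h => ⟨(Uc_bot hN).2 ⟨h.1.1, h.2⟩, fun i k => h.1.2 i ((Qc_bot hN _).1 k).1⟩⟩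

theorem Rc_union : Rc N ∪ Bc N = Uc N := by
  have h1 : ∀ i i' : Kl, ∃ j, (org (i, true) + 3) j ≤ org (i', false) j ∨
      (org (i', false) + 3) j ≤ org (i, true) j := fun i i' =>
    (Gx.org_gap3 (i, true) (i', false)).resolve_left (by simp)
  refine Set.Subset.antisymm (Set.union_subset (fun _ h => h.1) fun _ h => h.1) fun q hq => ?_
  by_cases h : ∀ i, q ∉ Qc N (i, true)
  · exact Or.inl ⟨hq, h⟩
  · push Not at h
    obtain ⟨i, hi⟩ := h
    exact Or.inr ⟨hq, fun i' hi' => not_both hi hi' (h1 i i')⟩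

end Outx

open Vale.Agent.P215Z.K.Coh.Outx

theorem out_all {N : ℕ} (hN : 0 < N) (q : Pt) (h3 : q 3 = 0) (hq : q ∉ Uc N) : Out N q := by
  by_cases h : InBox N 0 boxHi q
  · have h1 : ¬ ∀ c ∈ caves, ¬ InBox N c.1 c.2 q := fun h1 => hq ⟨h, h1⟩
    push Not at h1
    obtain ⟨c, hc, h1⟩ := h1
    exact ex_all hN hc q h1 h3
  · exact Out.base q h

theorem Qc_subset {N : ℕ} (l : Lg) : Qc N l ⊆ Uc N := by
  exact fun q hq => ⟨inBox_mono hq (Gx.org_bound l), fun c hc h =>
    not_both hq h (Gx.org_cave l c hc)⟩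

theorem KR_eq {N : ℕ} (hN : 0 < N) : KR N = Cy (Rc N) ∩ Sl (6 * N) :=
  Kof_eq hN fun _ => col_bot hN true

theorem KB_eq {N : ℕ} (hN : 0 < N) : KB N = Cy (Bc N) ∩ Sl (6 * N) :=
  Kof_eq hN fun _ => col_bot hN false

theorem KS_eq {N : ℕ} (hN : 0 < N) : KS N =
    Cy (Rc N) ∩ Cy (Bc N) ∩ Sl (6 * N) ∩ (Cy (Uc N)ᶜ ∪ Lv 0 ∪ Lv (6 * N)) := by
  rw [KS, KR_eq hN, KB_eq hN, ← Set.inter_inter_distrib_right]
  ext p
  refine and_congr_right fun hp => ⟨?_, ?_⟩
  · rintro ⟨q, hq, h⟩
    have h3 := abs_le.1 (h 3)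
    obtain ⟨h1, h2⟩ := hp.2
    rw [cell] at h3
    by_cases h4 : 0 ≤ q 3 ∧ q 3 < 3 * N
    · refine Or.inl (Or.inl ⟨bot q, fun k => hq ((Uc_bot hN).2 ⟨k, h4⟩), bot_three q,
        fun j hj => ?_⟩)
      rw [cell, bot_ne q hj]
      exact h j
    · by_cases h5 : q 3 < 0
      · exact Or.inl (Or.inr (show p 3 = 0 by omega))
      · exact Or.inr (show p 3 = 6 * N by omega)
  · have h0 : ∀ j, |p j - (2 * (p j / 2) + 1)| ≤ 1 := fun j => by
      rw [abs_le]
      omega
    rintro ((⟨q, hq, h3, h⟩ | h) | h)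
    · refine ⟨Function.update q 3 (p 3 / 2), fun k => hq ?_, fun j => ?_⟩
      · have := ((Uc_bot hN).1 k).1
        rwa [bot_update h3] at this
      · by_cases hj : j = 3
        · rw [hj, cell, Function.update_self]
          exact h0 3
        · rw [cell, Function.update_of_ne hj]
          exact h j hj
    · refine ⟨Function.update (fun j => p j / 2) 3 (-1), fun k => ?_, fun j => ?_⟩
      · have := ((Uc_bot hN).1 k).2.1
        rw [Function.update_self] at this
        omega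
      · by_cases hj : j = 3
        · rw [hj, cell, Function.update_self, show p 3 = 0 from h]
          decide
        · rw [cell, Function.update_of_ne hj]
          exact h0 j
    · refine ⟨fun j => p j / 2, fun k => ?_, h0⟩
      have h1 : p 3 / 2 < 3 * N := ((Uc_bot hN).1 k).2.2
      have h2 : p 3 = 6 * N := h
      omega

theorem Cy_union {N : ℕ} (hN : 0 < N) : Cy (Rc N) ∪ Cy (Bc N) = Cy (Uc N) := by
  rw [← Rc_union]
  ext p
  constructor
  · rintro (⟨q, h1, h2⟩ | ⟨q, h1, h2⟩)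
    exacts [⟨q, Or.inl h1, h2⟩, ⟨q, Or.inr h1, h2⟩]
  · rintro ⟨q, h1 | h1, h2⟩
    exacts [Or.inl ⟨q, h1, h2⟩, Or.inr ⟨q, h1, h2⟩]

end Vale.Agent.P215Z.K.Coh
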