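import Vale.Agent.P260Z.Ob.Geom
import Vale.Agent.P215Z.Coh.Main

/-!
# P260, obstruction, cohomology of lattice complexes: definitions which see the chart
-/

noncomputable section
set_option linter.unusedSectionVars false
variable [Vale.Agent.P215Z.K.Geom]
namespace Vale.Agent.P215Z.K.Coh
open MvPolynomial Fm Vale.Agent.P215Z.Coh

/-- cubes of the lowest layer which leave the box through cubes outside of the chart -/
inductive Out (N : ℕ) : Pt → Prop
  | base (q : Pt) (h : ¬ InBox N 0 boxHi q) : Out N q
  | step (q : Pt) (k : Fin 4) (s : Bool) (hk : k ≠ 3) (h : fc q k s ∉ Uc N)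
      (hr : Out N (fc q k s)) : Out N q

/-- the upper corner of the box at the level `h` -/
def hi3 (N : ℕ) (h : ℤ) : Pt := Function.update (fun j => 2 * (N * boxHi j)) 3 h

/-- the lower corner of the column of a leg at the level `h` -/
def cLo (N : ℕ) (l : Lg) (h : ℤ) : Pt := Function.update (fun j => 2 * N * org l j) 3 h

/-- the upper corner of the column of a leg at the level `h` -/
def cHi (N : ℕ) (l : Lg) (h : ℤ) : Pt := Function.update (fun j => 2 * N * (org l j + 3)) 3 h

end Vale.Agent.P215Z.K.Coh
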