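import Vale.Agent.P260Z.Ob.Coh.Path

/-!
# P260, obstruction, cohomology of the pair of regions
-/

noncomputable section
set_option linter.unusedSectionVars false
variable [Vale.Agent.P215Z.K.Geom]
namespace Vale.Agent.P215Z.K.Coh
open MvPolynomial Fm Vale.Agent.P215Z.Coh

variable {O : Type} [CommRing O] [Algebra ℚ O]

theorem isV_hi3 (N : ℕ) {h : ℤ} (hh : ¬ Odd h) : IsV (hi3 N h) := by
  intro j
  rw [Int.odd_iff] at hh ⊢
  fin_cases j <;> simp [hi3] <;> omega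

theorem isV_cLo (N : ℕ) (l : Lg) {h : ℤ} (hh : ¬ Odd h) : IsV (cLo N l h) := by
  intro j
  by_cases hj : j = 3
  · subst hj
    simpa [cLo] using hh
  · rw [cLo, Function.update_of_ne hj, mul_assoc, Int.not_odd_iff_even]
    exact even_two_mul _

theorem isV_cHi (N : ℕ) (l : Lg) {h : ℤ} (hh : ¬ Odd h) : IsV (cHi N l h) := by
  intro j
  by_cases hj : j = 3
  · subst hj
    simpa [cHi] using hh
  · rw [cHi, Function.update_of_ne hj, mul_assoc, Int.not_odd_iff_even]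
    exact even_two_mul _

theorem cLo_lt {N : ℕ} (hN : 0 < N) (l : Lg) (h : ℤ) {j : Fin 4} (hj : j ≠ 3) :
    cLo N l h j < cHi N l h j := by
  rw [cLo, cHi, Function.update_of_ne hj, Function.update_of_ne hj]
  have : (0 : ℤ) < N := by exact_mod_cast hN
  nlinarith

theorem lo3_lt {N : ℕ} (hN : 0 < N) (h : ℤ) {j : Fin 4} (hj : j ≠ 3) : lo3 h j < hi3 N h j := by
  fin_cases j <;> simp [lo3, hi3, hN, Gx.hi_pos] at hj ⊢

theorem box_subset_Lv (N : ℕ) (h : ℤ) : Box (lo3 h) (hi3 N h) ⊆ Lv h := by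
  intro p hp
  have h1 := hp 3
  simp only [lo3, hi3, Matrix.cons_val] at h1
  exact le_antisymm h1.2 h1.1

/-- the second cohomology of the three dimensional chart vanishes -/
theorem relEx_U {N : ℕ} (hN : 0 < N) {h : ℤ} (hh : ¬ Odd h) :
    RelEx O ∅ (Cy (Uc N) ∩ Lv h) 2 := by
  have hU := closed_inter (closed_Cy (Uc N)) (closed_Lv hh)
  refine RelEx.down hU (Set.empty_subset _) (Cy_subset_box h)
    (relEx_box_empty (isV_lo3 hh) (isV_hi3 N hh) (by norm_num)) ?_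
  exact relEx_esc hh hU (closed_Box (isV_lo3 hh) (isV_hi3 N hh)) (Cy_subset_box h)
    (box_subset_Lv N h) (box_finite _ _) (esc_U hN hh)

/-- the first cohomology of the chart without the columns, relative to the outer boundary -/
theorem relEx_AB {N : ℕ} (hN : 0 < N) {h : ℤ} (hh : ¬ Odd h) :
    RelEx O (Cy (Rc N) ∩ Cy (Bc N) ∩ Cy (Uc N)ᶜ ∩ Lv h) (Cy (Rc N) ∩ Cy (Bc N) ∩ Lv h) 1 := by
  have ha := isV_lo3 hh
  have hb := isV_hi3 N hh
  set Bx := Box (lo3 h) (hi3 N h) with hBx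
  set C := Cy (Uc N)ᶜ ∩ Bx with hC
  set AB := Cy (Rc N) ∩ Cy (Bc N) ∩ Lv h with hAB
  have cC : Closed C := closed_inter (closed_Cy _) (closed_Box ha hb)
  have cAB : Closed AB := closed_inter (closed_inter (closed_Cy _) (closed_Cy _)) (closed_Lv hh)
  have hd : bdim (lo3 h) (hi3 N h) = 3 := bdim_three (fun j hj => lo3_lt hN h hj) rfl
  have hv0 : lo3 h ∈ Bx := fun j => ⟨le_rfl, by
    by_cases hj : j = 3
    · subst hj; exact le_rfl
    · exact (lo3_lt hN h hj).le⟩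
  have hv : lo3 h ∈ Bd (lo3 h) (hi3 N h) := ⟨hv0, 0, lo3_lt hN h (by decide), Or.inl rfl⟩
  have h1 : RelEx O {lo3 h} C 0 :=
    RelEx.trans (closed_Bd ha hb) (Set.singleton_subset_iff.2 hv) (bd_subset hN h)
      (relEx_bd ha hb ha hv (by rw [hd]; norm_num))
      (relEx_reach cC (bd_subset hN h) (reach_C hN hh))
  have h2 : RelEx O C Bx 1 :=
    RelEx.up cC (Set.singleton_subset_iff.2 (bd_subset hN h hv)) Set.inter_subset_right
      (relEx_box ha hb ha hv0 1) h1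
  have h3 : RelEx O (C ∪ AB) Bx 2 := by
    have h4 : RelEx O (C ∪ AB) ((C ∪ AB) ∪ ⋃ l : Lg, Box (cLo N l h) (cHi N l h)) 2 := by
      refine RelEx.glue (closed_union cC cAB)
        (fun l => closed_Box (isV_cLo N l hh) (isV_cHi N l hh))
        (fun l l' hl => (col_disjoint hN h hl).le.trans (Set.empty_subset _)) fun l => ?_
      rw [col_inter hN h l]
      refine relEx_bd_box (isV_cLo N l hh) (isV_cHi N l hh) (fun j => ?_) ?_
      · by_cases hj : j = 3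
        · subst hj; simp [cLo, cHi]
        · exact (cLo_lt hN l h hj).le
      · rw [bdim_three (fun j hj => cLo_lt hN l h hj) (by simp [cLo, cHi])]
        norm_num
    rwa [← box_eq hN h] at h4
  have hsub : C ∪ AB ⊆ Bx := Set.subset_union_left.trans (box_eq hN h).ge
  have h5 : RelEx O C (C ∪ AB) 1 :=
    RelEx.down (closed_union cC cAB) Set.subset_union_left hsub h2 h3
  have h6 : C ∩ AB = Cy (Rc N) ∩ Cy (Bc N) ∩ Cy (Uc N)ᶜ ∩ Lv h := by
    ext p
    exact ⟨fun hp => ⟨⟨hp.2.1, hp.1.1⟩, hp.2.2⟩, fun hp =>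
      ⟨⟨hp.1.2, hsub (Or.inr ⟨hp.1.1, hp.2⟩)⟩, hp.1.1, hp.2⟩⟩
  rw [← h6]
  exact RelEx.excise cC cAB h5

theorem pairEx_K {N : ℕ} (hN : 0 < N) : PairEx O (KR N) (KB N) (KS N) 2 := by
  have hH : ¬ Odd (6 * N : ℤ) := by
    rw [Int.odd_iff]
    omega
  rw [KR_eq hN, KB_eq hN, KS_eq hN]
  refine pairEx_cyl hH (by omega) (closed_Cy _) (closed_Cy _) (closed_Cy _) (cyl_Cy _) (cyl_Cy _)
    (cyl_Cy _) ?_ (relEx_AB hN hH)
  rw [Cy_union hN]
  exact relEx_U hN (by decide)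

theorem bot_mem_KB {N : ℕ} (hN : 0 < N) : ∀ p ∈ KB N, bot p ∈ KB N := by
  rw [KB_eq hN]
  intro p hp
  refine ⟨(cyl_Cy _ p 0).1 hp.1, ?_⟩
  simp [Sl, bot]

theorem pair_H2 {N : ℕ} (hN : 0 < N) : P2I O (KR N) (KB N) (KS N) :=
  p2I_of (closed_Kof _) (closed_Kof _) (fun _ hp => hp.1.1) (fun _ hp => hp.1.2) (bot_mem_KB hN)
    (pairEx_K hN)

end Vale.Agent.P215Z.K.Coh
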