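import Vale.Agent.P215Z.Coh.Out
import Vale.Agent.P260Z.LayF

/-!
# P260: the caves of the periodic layout are joined to the outside
-/

noncomputable section
namespace Vale.Agent.P260Z.Ob.Og
open Vale.Agent.P215Z Vale.Agent.P215Z.Fm Vale.Agent.P215Z.Coh Vale.Agent.P215Z.Coh.Outx

/-- cubes of the lowest layer which leave the box through cubes outside of `U` -/
inductive OutG (N : ℕ) (hi : Pt) (U : Set Pt) : Pt → Prop
  | base (q : Pt) (h : ¬ InBox N 0 hi q) : OutG N hi U q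
  | step (q : Pt) (k : Fin 4) (s : Bool) (hk : k ≠ 3) (h : fc q k s ∉ U)
      (hr : OutG N hi U (fc q k s)) : OutG N hi U q

variable {N : ℕ} {hi a b q : Pt} {U : Set Pt}

/-- inside a box of removed cubes one passes from any cube to any other -/
theorem walk (hf : ∀ q, InBox N a b q → q ∉ U) {q' : Pt} (h' : InBox N a b q')
    (ho : OutG N hi U q') (n : ℕ) : ∀ q, InBox N a b q → q 3 = q' 3 →
      ∑ j, (q j - q' j).natAbs < n → OutG N hi U q := by
  induction n with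
  | zero => exact fun _ _ _ h => absurd h (Nat.not_lt_zero _)
  | succ n ih =>
    intro q h h3 hn
    by_cases he : q = q'
    · rwa [he]
    obtain ⟨k, hk⟩ := Function.ne_iff.1 he
    have hk3 : k ≠ 3 := fun e => hk (e ▸ h3)
    have h1 := fc_self q k (decide (q k < q' k))
    have h2 : InBox N a b (fc q k (decide (q k < q' k))) := fun j => by
      by_cases hj : j = k
      · have := h k
        have := h' k
        rw [hj, h1]
        split_ifs with h4 <;> simp only [decide_eq_true_eq] at h4 <;> omega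
      · rw [fc_ne q hj]
        exact h j
    refine OutG.step q k _ hk3 (hf _ h2) (ih _ h2 (by rw [fc_ne q hk3.symm, h3]) ?_)
    refine lt_of_lt_of_le (Finset.sum_lt_sum (fun j _ => ?_) ⟨k, Finset.mem_univ _, ?_⟩)
      (Nat.lt_succ_iff.1 hn)
    · by_cases hj : j = k
      · rw [hj, h1]
        split_ifs with h4 <;> simp only [decide_eq_true_eq] at h4 <;> omega
      · rw [fc_ne q hj]
    · rw [h1]
      split_ifs with h4 <;> simp only [decide_eq_true_eq] at h4 <;> omega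

/-- all cubes of the box are removed -/
def Rem (N : ℕ) (U : Set Pt) (B : Pt × Pt) : Prop := ∀ q, InBox N B.1 B.2 q → q ∉ U

/-- all cubes of the box leave -/
def Ex (N : ℕ) (hi : Pt) (U : Set Pt) (B : Pt × Pt) : Prop :=
  ∀ q, InBox N B.1 B.2 q → q 3 = 0 → OutG N hi U q

theorem link (hN : 0 < N) {B B' : Pt × Pt} (hB : Rem N U B) (h : Ex N hi U B') (m : Pt)
    (h3 : m 3 = 0) (h1 : ∀ j, B.1 j ≤ m j ∧ m j < B.2 j) (h2 : ∀ j, B'.1 j ≤ m j ∧ m j < B'.2 j) :
    Ex N hi U B := fun q hq q3 => by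
  have h4 : (N : ℤ) * m 3 = 0 := by rw [h3, mul_zero]
  exact walk hB ((inBox_mul hN).2 h1) (h _ ((inBox_mul hN).2 h2) h4) _ q hq (q3.trans h4.symm)
    (Nat.lt_succ_self _)

theorem exit (hN : 0 < N) {B : Pt × Pt} (hB : Rem N U B) (m : Pt) (h3 : m 3 = 0)
    (h1 : ∀ j, B.1 j ≤ m j ∧ m j < B.2 j) (h2 : ¬ ∀ j, (0 : Pt) j ≤ m j ∧ m j < hi j) :
    Ex N hi U B := fun q hq q3 =>
  walk hB ((inBox_mul hN).2 h1) (OutG.base _ fun h => h2 ((inBox_mul hN).1 h)) _ q hq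
    (by rw [q3, h3, mul_zero]) (Nat.lt_succ_self _)

open Lay

/-- the chart of the layout -/
def UL (k N : ℕ) : Set Pt := {q | InBox N 0 (boxHi k) q ∧ ∀ c ∈ caves k, ¬ InBox N c.1 c.2 q}

variable {k : ℕ}

theorem in_bx {i x x' y y' z z' : ℤ} {u v w : ℤ} (h : x ≤ u ∧ u < x' ∧ y ≤ v ∧ v < y' ∧ z ≤ w ∧ w < z') :
    ∀ j, (bx i x x' y y' z z').1 j ≤ ![u, v, 18 * i + w, 0] j ∧
      ![u, v, 18 * i + w, 0] j < (bx i x x' y y' z z').2 j := by
  intro j
  fin_cases j <;> simp [bx] <;> omega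

theorem rem_cave {c : Pt × Pt} (h : c ∈ caves k) : Rem N (UL k N) c := fun _ hq hu => hu.2 c h hq

theorem ex_tree (hN : 0 < N) {i : ℕ} (hi : i < k) : Ex N (boxHi k) (UL k N) (bx i 1 16 1 7 5 14) ∧
    Ex N (boxHi k) (UL k N) (bx i 8 9 3 4 1 5) ∧ Ex N (boxHi k) (UL k N) (bx i 8 9 3 9 1 2) ∧
    Ex N (boxHi k) (UL k N) (bx i 8 9 8 9 (-15) 2) ∧
    Ex N (boxHi k) (UL k N) (bx i 8 9 8 17 (-15) (-14)) := by
  have r : ∀ c ∈ tree i, Rem N (UL k N) c := fun c hc => rem_cave (tree_mem hi hc)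
  have a0 : Ex N (boxHi k) (UL k N) (bx i 8 9 8 18 (-15) (-14)) := by
    refine exit hN (fun q hq hu => ?_) ![8, 17, 18 * i + -15, 0] rfl (in_bx (by omega))
      fun h => absurd (h 1).2 (lt_irrefl _)
    rw [inBox_bx] at hq
    exact r (bx i 8 9 8 17 (-15) (-14)) (by simp [tree]) q
      ((inBox_bx ..).2 ⟨hq.1, ⟨hq.2.1.1, (hu.1 1).2⟩, hq.2.2⟩) hu
  have a1 := link hN (r (bx i 8 9 8 17 (-15) (-14)) (by simp [tree])) a0
    ![8, 8, 18 * i + -15, 0] rfl (in_bx (by omega)) (in_bx (by omega))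
  have a2 := link hN (r (bx i 8 9 8 9 (-15) 2) (by simp [tree])) a1
    ![8, 8, 18 * i + -15, 0] rfl (in_bx (by omega)) (in_bx (by omega))
  have a3 := link hN (r (bx i 8 9 3 9 1 2) (by simp [tree])) a2
    ![8, 8, 18 * i + 1, 0] rfl (in_bx (by omega)) (in_bx (by omega))
  have a4 := link hN (r (bx i 8 9 3 4 1 5) (by simp [tree])) a3
    ![8, 3, 18 * i + 1, 0] rfl (in_bx (by omega)) (in_bx (by omega))
  have a5 : Ex N (boxHi k) (UL k N) (bx i 8 9 3 4 1 6) := by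
    refine link hN (fun q hq hu => ?_) a4 ![8, 3, 18 * i + 1, 0] rfl (in_bx (by omega))
      (in_bx (by omega))
    rw [inBox_bx] at hq
    by_cases h : q 2 < N * (18 * i + 5)
    · exact r (bx i 8 9 3 4 1 5) (by simp [tree]) q
        ((inBox_bx ..).2 ⟨hq.1, hq.2.1, ⟨hq.2.2.1.1, h⟩, hq.2.2.2⟩) hu
    · refine r (bx i 1 16 1 7 5 14) (by simp [tree]) q
        ((inBox_bx ..).2 ⟨by omega, by omega, ⟨not_lt.1 h, ?_⟩, hq.2.2.2⟩) hu
      exact hq.2.2.1.2.trans_le (mul_mono N (by omega))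
  exact ⟨link hN (r (bx i 1 16 1 7 5 14) (by simp [tree])) a5 ![8, 3, 18 * i + 5, 0] rfl
    (in_bx (by omega)) (in_bx (by omega)), a4, a3, a2, a1⟩

theorem ex_clo (hN : 0 < N) {i : ℕ} (hi : i + 1 < k) :
    Ex N (boxHi k) (UL k N) (bx i 11 16 1 16 5 14) :=
  link hN (rem_cave (clo_mem hi)) (ex_tree hN (by omega)).1 ![11, 1, 18 * i + 5, 0] rfl
    (in_bx (by omega)) (in_bx (by omega))

theorem ex_top (hN : 0 < N) {i : ℕ} (hi : i + 1 = k) :
    Ex N (boxHi k) (UL k N) (bx i 1 16 10 17 5 14) := by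
  have a0 : Ex N (boxHi k) (UL k N) (bx i 1 16 10 18 5 14) := by
    refine exit hN (fun q hq hu => ?_) ![1, 17, 18 * i + 5, 0] rfl (in_bx (by omega))
      fun h => absurd (h 1).2 (lt_irrefl _)
    rw [inBox_bx] at hq
    exact rem_cave (top_mem hi) q ((inBox_bx ..).2 ⟨hq.1, ⟨hq.2.1.1, (hu.1 1).2⟩, hq.2.2⟩) hu
  exact link hN (rem_cave (top_mem hi)) a0 ![1, 10, 18 * i + 5, 0] rfl (in_bx (by omega))
    (in_bx (by omega))

/-- every removed cube of the lowest layer leaves the box -/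
theorem out_lay (hN : 0 < N) (q : Pt) (h3 : q 3 = 0) (hq : q ∉ UL k N) :
    OutG N (boxHi k) (UL k N) q := by
  by_cases h : InBox N 0 (boxHi k) q
  swap
  · exact OutG.base q h
  have h1 : ¬ ∀ c ∈ caves k, ¬ InBox N c.1 c.2 q := fun h1 => hq ⟨h, h1⟩
  push Not at h1
  obtain ⟨c, hc, h1⟩ := h1
  obtain ⟨i, hi, e⟩ := cave_cases hc
  obtain ⟨a1, a2, a3, a4, a5⟩ := ex_tree hN hi
  rcases e with ⟨e, rfl⟩ | ⟨e, rfl⟩ | rfl | rfl | rfl | rfl | rfl | rfl
  · exact ex_clo hN e q h1 h3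
  · exact ex_top hN e q h1 h3
  · exact a1 q h1 h3
  · rcases (show i + 1 < k ∨ i + 1 = k by omega) with e | e
    · exact link hN (rem_cave hc) (ex_clo hN e) ![11, 10, 18 * i + 5, 0] rfl (in_bx (by omega))
        (in_bx (by omega)) q h1 h3
    · exact link hN (rem_cave hc) (ex_top hN e) ![11, 10, 18 * i + 5, 0] rfl (in_bx (by omega))
        (in_bx (by omega)) q h1 h3
  · exact a2 q h1 h3
  · exact a3 q h1 h3
  · exact a4 q h1 h3
  · exact a5 q h1 h3

end Vale.Agent.P260Z.Ob.Og
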