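import Vale.Agent.P260Z.Ob.Coh.Cols

/-!
# P260, obstruction, cohomology: paths out of the box
-/

noncomputable section
set_option linter.unusedSectionVars false
set_option linter.unusedVariables false
variable [Vale.Agent.P215Z.K.Geom]
namespace Vale.Agent.P215Z.K.Coh
open MvPolynomial Fm Vale.Agent.P215Z.Coh

namespace PathAux

export Vale.Agent.P215Z.Coh.PathAux (fc_at c3_at c3_three fc_three fc_fc_c3 fc_c3_not face_notMem
  Near near_c3 reach_update)

variable {N : ℕ} {h : ℤ} {p q : Pt} {k : Fin 4} {s : Bool}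

theorem mem_box : p ∈ Box (lo3 h) (hi3 N h) ↔
    p 3 = h ∧ ∀ j, j ≠ 3 → 0 ≤ p j ∧ p j ≤ 2 * (N * boxHi j) := by
  simp only [Box, Set.mem_ofPred_eq, Fin.forall_fin_succ, lo3, hi3]
  simp
  omega

theorem inBox_iff (hN : 0 < N) (h3 : q 3 = 0) :
    InBox N 0 boxHi q ↔ ∀ j, j ≠ 3 → 0 ≤ q j ∧ q j < N * boxHi j := by
  refine ⟨fun k j _ => by simpa using k j, fun k j => ?_⟩
  by_cases e : j = 3
  · subst e
    rw [h3]
    simp [Gx.hi_three, hN]
  · simpa using k j e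

theorem mem_bd (hN : 0 < N) (hp : p ∈ Box (lo3 h) (hi3 N h)) {j : Fin 4} (hj : j ≠ 3)
    (e : p j ≤ 0 ∨ 2 * (N * boxHi j) ≤ p j) : p ∈ Bd (lo3 h) (hi3 N h) := by
  refine ⟨hp, j, ?_⟩
  have := (mem_box.1 hp).2 j hj
  have h1 := mul_pos (Int.natCast_pos.2 hN) (Gx.hi_pos j)
  fin_cases j <;> simp [lo3, hi3] at hj e this ⊢ <;> simp only [Fin.reduceFinMk] at h1 <;> omega

theorem c3_mem_box (hN : 0 < N) (h3 : q 3 = 0) :
    c3 h q ∈ Box (lo3 h) (hi3 N h) ↔ InBox N 0 boxHi q := by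
  rw [mem_box, inBox_iff hN h3]
  refine ⟨fun k j hj => ?_, fun k => ⟨c3_three _ _, fun j hj => ?_⟩⟩
  · have := k.2 j hj
    rw [c3_at _ _ hj] at this
    omega
  · have := k j hj
    rw [c3_at _ _ hj]
    omega

theorem esc_c3 (hN : 0 < N) (ho : Out N q) (h3 : q 3 = 0) (hq : q ∉ Uc N)
    (hb : InBox N 0 boxHi q) : Esc (Cy (Uc N) ∩ Lv h) (Box (lo3 h) (hi3 N h)) (c3 h q) := by
  induction ho with
  | base q k => exact absurd hb k
  | step q k s hk hq' _ ih =>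
    have e3 : fc q k s 3 = 0 := (fc_three hk).trans h3
    have hf : fc (c3 h q) k s ∉ Cy (Uc N) ∩ Lv h := fun j => face_notMem hk h3 hq hq' j.1
    by_cases hb' : InBox N 0 boxHi (fc q k s)
    · exact Esc.step _ k s hk hf (fc_fc_c3 hk ▸ ih e3 hq' hb')
    · exact Esc.out _ k s hk hf (by rwa [fc_fc_c3 hk, c3_mem_box hN e3])

theorem near_mem (hN : 0 < N) (hp : Near h q p) (h3 : q 3 = 0) (hq : q ∉ Uc N)
    (hb : InBox N 0 boxHi q) : p ∈ Cy (Uc N)ᶜ ∩ Box (lo3 h) (hi3 N h) := by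
  refine ⟨⟨q, hq, h3, hp.2⟩, mem_box.2 ⟨hp.1, fun j hj => ?_⟩⟩
  have k1 := abs_le.1 (hp.2 j hj)
  have k2 := (inBox_iff hN h3).1 hb j hj
  rw [cell] at k1
  omega

theorem reach_c3 (hN : 0 < N) (ho : Out N q) (h3 : q 3 = 0) (hq : q ∉ Uc N)
    (hb : InBox N 0 boxHi q) :
    Reach (Bd (lo3 h) (hi3 N h)) (Cy (Uc N)ᶜ ∩ Box (lo3 h) (hi3 N h)) (c3 h q) := by
  induction ho with
  | base q k => exact absurd hb k
  | step q k s hk hq' _ ih =>
    have e3 : fc q k s 3 = 0 := (fc_three hk).trans h3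
    refine Reach.coface _ k s (near_mem hN (near_c3 h q) h3 hq hb) ⟨q k, c3_at _ _ hk⟩ ?_
    by_cases hb' : InBox N 0 boxHi (fc q k s)
    · rw [← fc_c3_not hk]
      exact Reach.face _ k _ (near_mem hN (near_c3 h _) e3 hq' hb') ⟨_, c3_at _ _ hk⟩ (ih e3 hq' hb')
    · have hn : Near h q (fc (c3 h q) k s) := ⟨(fc_three hk).trans (c3_three _ _), fun j hj => by
        rw [fc_at, c3_at _ _ hj, cell]
        by_cases e : j = k <;> cases s <;> simp [e]⟩
      refine Reach.base _ (mem_bd hN (near_mem hN hn h3 hq hb).2 hk ?_)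
      rw [fc_at, if_pos rfl, c3_at _ _ hk]
      by_contra hc
      refine hb' ((inBox_iff hN e3).2 fun j hj => ?_)
      have := (inBox_iff hN h3).1 hb j hj
      rw [fc_at]
      by_cases e : j = k
      · subst e
        cases s <;> simp at hc ⊢ <;> omega
      · rwa [if_neg e, add_zero]

end PathAux

open Vale.Agent.P215Z.K.Coh.PathAux

theorem reach_C {N : ℕ} (hN : 0 < N) {h : ℤ} (hh : ¬ Odd h) :
    ∀ p ∈ Cy (Uc N)ᶜ ∩ Box (lo3 h) (hi3 N h),
      Reach (Bd (lo3 h) (hi3 N h)) (Cy (Uc N)ᶜ ∩ Box (lo3 h) (hi3 N h)) p := by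
  rintro p ⟨⟨q, hq, h3, hj⟩, hp⟩
  by_cases hb : InBox N 0 boxHi q
  · have hC : ∀ r, Near h q r → r ∈ Cy (Uc N)ᶜ ∩ Box (lo3 h) (hi3 N h) :=
      fun r hr => near_mem hN hr h3 hq hb
    obtain ⟨n0, r0⟩ := reach_update hC (near_c3 h q) (reach_c3 hN (out_all hN q h3 hq) h3 hq hb)
      (j := 0) (by decide) (c3_at _ _ (by decide)) (hj 0 (by decide))
    obtain ⟨n1, r1⟩ := reach_update hC n0 r0 (j := 1) (by decide)
      (by rw [Function.update_of_ne (by decide)]; exact c3_at _ _ (by decide)) (hj 1 (by decide))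
    obtain ⟨-, r2⟩ := reach_update hC n1 r1 (j := 2) (by decide)
      (by
        rw [Function.update_of_ne (by decide), Function.update_of_ne (by decide)]
        exact c3_at _ _ (by decide)) (hj 2 (by decide))
    refine (show _ = p from funext fun j => ?_) ▸ r2
    fin_cases j <;> simp [c3_three, (mem_box.1 hp).1]
  · rw [inBox_iff hN h3] at hb
    push Not at hb
    obtain ⟨j, j3, k⟩ := hb
    refine Reach.base _ (mem_bd hN hp j3 ?_)
    have := abs_le.1 (hj j j3)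
    rw [cell] at this
    omega

theorem esc_U {N : ℕ} (hN : 0 < N) {h : ℤ} (hh : ¬ Odd h) :
    ∀ p ∈ Box (lo3 h) (hi3 N h), p ∉ Cy (Uc N) ∩ Lv h → (∀ j, j ≠ 3 → Odd (p j)) →
      Esc (Cy (Uc N) ∩ Lv h) (Box (lo3 h) (hi3 N h)) p := by
  intro p hp hn ho
  have p3 := (mem_box.1 hp).1
  obtain ⟨q, h3, e⟩ : ∃ q : Pt, q 3 = 0 ∧ p = c3 h q := by
    refine ⟨Function.update (fun j => p j / 2) 3 0, Function.update_self .., funext fun j => ?_⟩
    by_cases e : j = 3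
    · rw [e, c3_three, p3]
    · obtain ⟨m, hm⟩ := ho j e
      rw [c3_at _ _ e, Function.update_of_ne e]
      omega
  subst e
  have hq : q ∉ Uc N := fun k => hn ⟨⟨q, k, h3, (near_c3 h q).2⟩, p3⟩
  exact esc_c3 hN (out_all hN _ h3 hq) h3 hq ((c3_mem_box hN h3).1 hp)

end Vale.Agent.P215Z.K.Coh
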